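import Vale.Agent.P011.H738.Atl.Step
import Vale.Agent.P011.H167.NiI
import Vale.Agent.P011.H580.NrmX

/-!
# The tower lemma over function fields, without hypotheses
-/

open Polynomial Module

set_option linter.unusedSectionVars false
set_option linter.unusedVariables false

namespace Vale.Agent.P011.H738.Atl

open Vale.Agent.P011.H738 Vale.Agent.P011.H271 Vale.Agent.P011.H271.S3 Vale.Agent.P011.H973.PF
open Vale.Agent.P011.H511.FF Vale.Agent.P011.H74.Odd

/-- Norms close to one are norms of elements close to one, prime degree. -/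
theorem nxp {p : ℕ} (hp : p.Prime) : NXp p := by
  intro R R' _ _ _ _ _ _ _ hdeg S ε hε
  have hcard : Nat.card (R' ≃ₐ[R] R') = p := by
    rw [IsGalois.card_aut_eq_finrank, hdeg]
  have : Fact p.Prime := ⟨hp⟩
  have hcyc : IsCyclic (R' ≃ₐ[R] R') := isCyclic_of_prime_card hcard
  obtain ⟨s, hs⟩ := hcyc.exists_generator
  have hos : orderOf s = p := by
    rw [orderOf_eq_card_of_forall_mem_zpowers hs, hcard]
  refine H580.norm_near hp hdeg s (fun t => ?_) S hε
  obtain ⟨i, hi⟩ := (mem_powers_iff_mem_zpowers.2 (hs t) : t ∈ Submonoid.powers s)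
  refine ⟨i % p, Nat.mod_lt _ hp.pos, ?_⟩
  rw [← hos, pow_mod_orderOf]
  exact hi.symm

/-- **The tower lemma over function fields, every characteristic.** -/
theorem descent' {k P : Type} [Field k] [GFF k] [Field P] [GFF P] [Algebra k P]
    [FiniteDimensional k P] {S : Set (Place k)} (hSf : S.Finite)
    {W : Subgroup Pˣ} (hGF : GF S W) {M : Type} [Field M] [Algebra P M]
    [Algebra k M] [IsScalarTower k P M] [FiniteDimensional P M] [Algebra.IsSeparable P M]
    (hM : Gd S W M) :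
    ∃ ε : ℝ, 0 < ε ∧ ∀ b : Pˣ, NrF S ε (b : P) → b ∈ W :=
  descent hSf hGF hM fun p hp _ => ⟨H167.Ni.n1 hp, H167.Ni.n2 hp, nxp hp⟩

/-- More places. -/
theorem GF.mono {k P : Type} [Field k] [GFF k] [Field P] [GFF P] [Algebra k P]
    [FiniteDimensional k P] {S S' : Set (Place k)} (hSS : S ⊆ S') {W : Subgroup Pˣ}
    (h : GF S W) : GF S' W := by
  intro V hV hVS
  obtain ⟨M, i1, i2, i3, θ, S2, ε, h1, h2, h3, h4, h5, h6, h7, h8, h9⟩ :=
    h V hV (hVS.mono_right hSS)
  exact ⟨M, i1, i2, i3, θ, S2, ε, h1, h2, h3, h4, h5, h6, h7, h8, fun y hy0 hy =>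
    h9 y hy0 (hy.mono (Set.union_subset_union_left _ hSS) le_rfl)⟩

/-- **The tower lemma**: with the good fields only. -/
theorem descent_all {k P : Type} [Field k] [GFF k] [Field P] [GFF P] [Algebra k P]
    [FiniteDimensional k P] {S : Set (Place k)} (hSf : S.Finite)
    {W : Subgroup Pˣ} (hGF : GF S W) :
    ∃ S' : Set (Place k), S ⊆ S' ∧ S'.Finite ∧
      ∃ ε : ℝ, 0 < ε ∧ ∀ b : Pˣ, NrF S' ε (b : P) → b ∈ W := by
  obtain ⟨M, _, _, _, θ, S2, ε, _, _, _, h4, h5, h6, h7, h8, h9⟩ :=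
    hGF ∅ Set.finite_empty (Set.empty_disjoint S)
  refine ⟨S ∪ S2, Set.subset_union_left, hSf.union h6, ?_⟩
  exact descent' (hSf.union h6) (hGF.mono Set.subset_union_left) ⟨ε, h8, h9⟩

end Vale.Agent.P011.H738.Atl
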