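import Vale.Agent.P011.H738.Atl.Two

/-!
# Elements close to one above a finite set of places, in a tower of function fields
-/

open Polynomial Module

set_option linter.unusedSectionVars false

namespace Vale.Agent.P011.H738.Atl

open Vale.Agent.P011.H738 Vale.Agent.P011.H271 Vale.Agent.P011.H271.S3 Vale.Agent.P011.H973.PF
open Vale.Agent.P011.H511.FF Vale.Agent.P011.H74.Odd

section near

variable {k : Type} [Field k] {X : Type} [Field X] [Algebra k X]

/-- Closeness to one above the places of `S`. -/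
def NrF (S : Set (Place k)) (ε : ℝ) (x : X) : Prop :=
  ∀ v ∈ S, ∀ w : Place X, Ab w v → w.abv (x - 1) < ε

variable {S S' : Set (Place k)} {ε ε' : ℝ}

theorem NrF.mono (hS : S' ⊆ S) (h : ε ≤ ε') {x : X} (hx : NrF S ε x) : NrF S' ε' x :=
  fun v hv w hw => (hx v (hS hv) w hw).trans_le h

theorem NrF.mul (h1 : ε ≤ 1) {x y : X} (hx : NrF S ε x) (hy : NrF S ε y) : NrF S ε (x * y) :=
  fun v hv w hw => close_mul w h1 (hx v hv w hw) (hy v hv w hw)

theorem NrF.inv (h1 : ε ≤ 1) {x : X} (hx : NrF S ε x) : NrF S ε x⁻¹ :=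
  fun v hv w hw => close_inv w h1 (hx v hv w hw)

theorem NrF.pow (h1 : ε ≤ 1) {x : X} (hx : NrF S ε x) (n : ℕ) :
    NrF S ε (x ^ n) :=
  fun v hv w hw => close_pow w h1 (hx v hv w hw) n

theorem NrF.one (h0 : 0 < ε) : NrF S ε (1 : X) := fun v _ w _ => by
  rw [sub_self, map_zero]
  exact h0

end near

section tower

variable {k : Type} [Field k] [GFF k] {X Y : Type} [Field X] [GFF X] [Algebra k X]
  [Field Y] [GFF Y] [Algebra k Y] [Algebra X Y] [IsScalarTower k X Y]

/-- The intermediate place. -/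
theorem ab_mid [Algebra.IsAlgebraic k X] {w' : Place Y} {w : Place X} {v : Place k}
    (h1 : Ab w' w) (h2 : Ab w' v) : Ab w v := by
  obtain ⟨v', hv'⟩ := exists_below_ab (k := k) w
  have h3 : Ab w' v' := H511.FF.ab_trans h1 hv'
  rwa [(av_of_ab h3).unique (av_of_ab h2)] at hv'

/-- Going up. -/
theorem exists_nrF_up [Algebra.IsAlgebraic k X] [Algebra.IsAlgebraic X Y] [Algebra.IsAlgebraic k Y]
    {S : Set (Place k)} (hS : S.Finite) {ε : ℝ} (hε : 0 < ε) :
    ∃ ε' : ℝ, 0 < ε' ∧ ∀ x : X, NrF S ε' x → NrF S ε (algebraMap X Y x) := by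
  classical
  have hf := above_finite (K := Y) hS
  choose bl hbl using fun w' : Place Y => exists_below_ab (k := X) w'
  choose r hr h using fun w' : Place Y => ab_small (hbl w') hε
  obtain ⟨m, hm, hml⟩ := exists_lb hf.toFinset r fun W _ => hr W
  refine ⟨m, hm, fun x hx v hv w' hw' => ?_⟩
  have h1 : Ab (bl w') v := ab_mid (hbl w') hw'
  have h2 := h w' (x - 1) ((hx v hv _ h1).trans_le
    (hml w' (hf.mem_toFinset.2 ⟨v, hv, av_of_ab hw'⟩)))
  rwa [map_sub, map_one] at h2

/-- The norm of an element close to one. -/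
theorem exists_nrF_norm [Algebra.IsAlgebraic k X] [FiniteDimensional X Y]
    [Algebra.IsSeparable X Y] {S : Set (Place k)} (hS : S.Finite) {ε : ℝ} (hε : 0 < ε) :
    ∃ ε' : ℝ, 0 < ε' ∧ ∀ y : Y, NrF S ε' y → NrF S ε (Algebra.norm X y) := by
  classical
  have haY : Algebra.IsAlgebraic k Y := Algebra.IsAlgebraic.trans k X Y
  have hf := above_finite (K := Y) hS
  choose bl hbl using fun w' : Place Y => exists_below_ab (k := X) w'
  choose g hg0 hg1 hg2 using fun w : Place X => exists_small w hε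
  obtain ⟨m, hm, hml⟩ := exists_lb hf.toFinset (fun w' => w'.abv (algebraMap X Y (g (bl w'))))
    fun w' _ => w'.abv.pos ((_root_.map_ne_zero _).2 (hg0 _))
  refine ⟨m, hm, fun y hy v hv w hw => ?_⟩
  refine (norm_near (hg0 w) (hg1 w) fun w' hw' => ?_).trans (hg2 w)
  have h1 : Ab w' v := H511.FF.ab_trans hw' hw
  have h2 := (hy v hv w' h1).trans_le (hml w' (hf.mem_toFinset.2 ⟨v, hv, av_of_ab h1⟩))
  rwa [(av_of_ab (hbl w')).unique (av_of_ab hw')] at h2

end tower

end Vale.Agent.P011.H738.Atl
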