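import Vale.Agent.P011.H738.Atl.Near
import Vale.Agent.P011.H327.SplitHomF
import Vale.Agent.P011.H327.Tower

/-!
# The abstract tower lemma over function fields, in every characteristic

The descent along the tower of the fixed fields of `p`-groups: norms of elements close to one.
-/

open Polynomial Module

set_option linter.unusedSectionVars false

namespace Vale.Agent.P011.H738.Atl

open Vale.Agent.P011.H738 Vale.Agent.P011.H271 Vale.Agent.P011.H271.S3 Vale.Agent.P011.H973.PF
open Vale.Agent.P011.H511.FF Vale.Agent.P011.H74.Odd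

section comp

/-- The composite of two extensions. -/
theorem exists_comp {P R M : Type} [Field P] [Field R] [Field M] [Algebra P R] [Algebra P M]
    [FiniteDimensional P M] [Algebra.IsSeparable P M] (θ : M) (hθ : Algebra.adjoin P {θ} = ⊤) :
    ∃ (E : Type) (_ : Field E) (_ : Algebra R E) (_ : Algebra M E),
      FiniteDimensional R E ∧ Algebra.IsSeparable R E ∧
      (∀ b : P, algebraMap R E (algebraMap P R b) = algebraMap M E (algebraMap P M b)) ∧
      IntermediateField.adjoin R {algebraMap M E θ} = ⊤ := by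
  let e : M →ₐ[P] AlgebraicClosure R := IsAlgClosed.lift
  obtain ⟨E, hE⟩ : ∃ E, E = IntermediateField.adjoin R {e θ} := ⟨_, rfl⟩
  have hint : IsIntegral R (e θ) :=
    IsIntegral.tower_top (R := P) ((Algebra.IsIntegral.isIntegral θ).map e)
  have hfd : FiniteDimensional R E := by
    rw [hE]
    exact IntermediateField.adjoin.finiteDimensional hint
  have hsep : Algebra.IsSeparable R E := by
    rw [hE, IntermediateField.isSeparable_adjoin_simple_iff_isSeparable]
    have h1 : IsSeparable P (e θ) := by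
      change (minpoly P (e θ)).Separable
      rw [minpoly.algHom_eq e e.toRingHom.injective]
      exact Algebra.IsSeparable.isSeparable P θ
    exact h1.tower_top R
  have hmem : ∀ x : M, e x ∈ E := by
    intro x
    have h1 : x ∈ Algebra.adjoin P {θ} := by rw [hθ]; exact Algebra.mem_top
    rw [Algebra.adjoin_singleton_eq_range_aeval] at h1
    obtain ⟨q, rfl⟩ := h1
    have h2 : e θ ∈ E := by
      rw [hE]
      exact IntermediateField.mem_adjoin_simple_self R _
    change e (aeval θ q) ∈ E
    rw [← aeval_algHom_apply, ← aeval_map_algebraMap R]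
    have h3 : ((aeval (⟨e θ, h2⟩ : E) (q.map (algebraMap P R)) : E) : AlgebraicClosure R) =
        aeval (e θ) (q.map (algebraMap P R)) := by
      rw [← IntermediateField.coe_val, ← aeval_algHom_apply]
      rfl
    rw [← h3]
    exact (aeval (⟨e θ, h2⟩ : E) (q.map (algebraMap P R))).2
  let e' : M →+* E := (e : M →+* AlgebraicClosure R).codRestrict E.toSubfield hmem
  refine ⟨E, inferInstance, inferInstance, e'.toAlgebra, hfd, hsep, fun b => ?_, ?_⟩
  · apply Subtype.ext
    change algebraMap R (AlgebraicClosure R) (algebraMap P R b) = e (algebraMap P M b)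
    rw [e.commutes, ← IsScalarTower.algebraMap_apply]
  · apply IntermediateField.lift_injective E
    rw [IntermediateField.lift_top]
    change IntermediateField.lift (IntermediateField.adjoin R {e' θ}) = E
    rw [IntermediateField.lift_adjoin_simple]
    have h1 : ((e' θ : E) : AlgebraicClosure R) = e θ := rfl
    rw [h1, ← hE]

end comp

section step

variable {k P : Type} [Field k] [GFF k] [Field P] [GFF P] [Algebra k P] [FiniteDimensional k P]

/-- Elements of the subgroup. -/
def WM (W : Subgroup Pˣ) (x : P) : Prop := ∃ b ∈ W, (b : P) = x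

omit [GFF P] in
theorem WM.mul {W : Subgroup Pˣ} {x y : P} (hx : WM W x) (hy : WM W y) : WM W (x * y) := by
  obtain ⟨b, hb, rfl⟩ := hx
  obtain ⟨b', hb', rfl⟩ := hy
  exact ⟨b * b', W.mul_mem hb hb', rfl⟩

/-- The norms of the elements close to one above `S` belong to the subgroup. -/
def Gd (S : Set (Place k)) (W : Subgroup Pˣ) (X : Type) [Field X] [Algebra k X]
    [Algebra P X] : Prop :=
  ∃ ε : ℝ, 0 < ε ∧ ∀ x : X, x ≠ 0 → NrF S ε x → WM W (Algebra.norm P x)

/-- The good fields: split at the places of `V`. -/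
def GF (S : Set (Place k)) (W : Subgroup Pˣ) : Prop :=
  ∀ V : Set (Place k), V.Finite → Disjoint V S →
    ∃ (M : Type) (_ : Field M) (_ : Algebra P M) (_ : Algebra k M) (θ : M)
      (S2 : Set (Place k)) (ε : ℝ), IsScalarTower k P M ∧ FiniteDimensional P M ∧
      Algebra.IsSeparable P M ∧ Algebra.adjoin P {θ} = ⊤ ∧
      (∀ v ∈ V, ((minpoly k θ).map (algebraMap k v.comp)).Splits) ∧
      S2.Finite ∧ Disjoint V S2 ∧ 0 < ε ∧
      ∀ y : M, y ≠ 0 → NrF (S ∪ S2) ε y → WM W (Algebra.norm P y)

/-- **The step.** -/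
theorem gd_step {S : Set (Place k)} (hSf : S.Finite) {W : Subgroup Pˣ}
    (hGF : GF S W) {p : ℕ} (hp : p.Prime) (hN1 : N1 p) (hN2 : N2 p) (hX : NXp p)
    {R R' : Type} [Field R] [GFF R]
    [Algebra k R] [Algebra P R] [IsScalarTower k P R] [FiniteDimensional P R]
    [Algebra.IsSeparable P R]
    [Field R'] [GFF R'] [Algebra k R'] [Algebra P R'] [IsScalarTower k P R']
    [FiniteDimensional P R'] [Algebra R R'] [IsScalarTower P R R'] [IsScalarTower k R R']
    [IsGalois R R'] (hdeg : finrank R R' = p) (h' : Gd S W R') :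
    Gd S W R := by
  classical
  obtain ⟨ε', hε', hG⟩ := h'
  have f1 : FiniteDimensional k R := Module.Finite.trans P R
  have f5 : FiniteDimensional R R' := Module.finite_of_finrank_pos (by rw [hdeg]; exact hp.pos)
  choose bl hbl using fun w : Place R => exists_below_ab (k := k) w
  have hAf : {w : Place R | ∃ v ∈ S, Av' w v}.Finite := above_finite hSf
  have hA : ∀ w, w ∈ hAf.toFinset ↔ bl w ∈ S := by
    intro w
    rw [hAf.mem_toFinset]
    constructor
    · rintro ⟨v, hv, hw⟩
      rwa [(av_of_ab (hbl w)).unique hw]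
    · exact fun h => ⟨bl w, h, av_of_ab (hbl w)⟩
  obtain ⟨v0, hv0, δ, hδ, H⟩ := two_norm_all hp hN1 hN2 hdeg (hX R R' hdeg) hAf.toFinset hε'
  refine ⟨δ, hδ, fun x hx0 hx => ?_⟩
  obtain ⟨V, hVA, HE⟩ := H x hx0 fun w hw => hx (bl w) ((hA w).mp hw) w (hbl w)
  -- the places below
  obtain ⟨Vk, hVk⟩ : ∃ Vk : Set (Place k),
      Vk = insert (bl v0) (bl '' (V : Set (Place R))) := ⟨_, rfl⟩
  have hVkf : Vk.Finite := by
    rw [hVk]
    exact (V.finite_toSet.image bl).insert _
  have hVkS : Disjoint Vk S := by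
    rw [Set.disjoint_left, hVk]
    rintro v (rfl | ⟨w, hw, rfl⟩) hvS
    · exact hv0 ((hA v0).mpr hvS)
    · exact Finset.disjoint_left.mp hVA (Finset.mem_coe.mp hw) ((hA w).mpr hvS)
  obtain ⟨M, _, _, _, θ, S2, ε2, tM, fM, sM, hθ, hsp, hS2f, hVS2, hε2, hM⟩ := hGF Vk hVkf hVkS
  obtain ⟨E, _, _, _, f3, s3, hE, hgen⟩ := exists_comp (R := R) θ hθ
  let _ : Algebra P E := ((algebraMap R E).comp (algebraMap P R)).toAlgebra
  have t1 : IsScalarTower P R E := IsScalarTower.of_algebraMap_eq fun _ => rfl
  have t2 : IsScalarTower P M E := IsScalarTower.of_algebraMap_eq fun b => hE b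
  let _ : Algebra k E := ((algebraMap P E).comp (algebraMap k P)).toAlgebra
  have t3 : IsScalarTower k P E := IsScalarTower.of_algebraMap_eq fun _ => rfl
  have t4 : IsScalarTower k R E := IsScalarTower.of_algebraMap_eq fun x => by
    rw [IsScalarTower.algebraMap_apply k P R, ← IsScalarTower.algebraMap_apply P R E]
    rfl
  have t5 : IsScalarTower k M E := IsScalarTower.of_algebraMap_eq fun x => by
    rw [IsScalarTower.algebraMap_apply k P M, ← IsScalarTower.algebraMap_apply P M E]
    rfl
  have fPE : FiniteDimensional P E := Module.Finite.trans R E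
  have f4 : FiniteDimensional M E := FiniteDimensional.right P M E
  have f6 : FiniteDimensional k M := Module.Finite.trans P M
  have f7 : FiniteDimensional k E := Module.Finite.trans P E
  have sPE : Algebra.IsSeparable P E := Algebra.IsSeparable.trans P R E
  have s4 : Algebra.IsSeparable M E := Algebra.isSeparable_tower_top_of_isSeparable P M E
  have gM : GFF M := Hey.H63.gff_of_finite (k := P)
  have gE : GFF E := Hey.H63.gff_of_finite (k := P)
  obtain ⟨ε3, hε3, hn⟩ := exists_nrF_norm (X := M) (Y := E) (hSf.union hS2f) hε2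
  have hA2f : {w : Place R | ∃ v ∈ S2, Av' w v}.Finite := above_finite hS2f
  have hTS : ∀ v : Place R, v = v0 ∨ v ∈ V → TS R E v := by
    intro w hw
    refine (H327.SplitHom.exists_algHom_place (K := k) (hbl w) {algebraMap M E θ} hgen ?_).1
    intro y hy
    rw [Set.mem_singleton_iff] at hy
    subst hy
    have h1 : minpoly k (algebraMap M E θ) = minpoly k θ :=
      minpoly.algebraMap_eq (algebraMap M E).injective θ
    refine ⟨(Algebra.IsIntegral.isIntegral (R := k) θ).algebraMap, ?_⟩
    rw [h1]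
    refine hsp (bl w) ?_
    rw [hVk]
    rcases hw with rfl | hw
    · exact Or.inl rfl
    · exact Or.inr ⟨w, Finset.mem_coe.mpr hw, rfl⟩
  obtain ⟨x1, y, hy0, hxy, hx1, hy⟩ := HE E hTS hA2f.toFinset (by
      rw [Finset.disjoint_left]
      intro w hw hw2
      obtain ⟨v, hv, hwv⟩ := hA2f.mem_toFinset.mp hw2
      rw [← (av_of_ab (hbl w)).unique hwv] at hv
      refine Set.disjoint_left.mp hVS2 ?_ hv
      rw [hVk]
      exact Or.inr ⟨w, Finset.mem_coe.mpr hw, rfl⟩) ε3 hε3
  have hx10 : x1 ≠ 0 := by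
    rintro rfl
    rw [Algebra.norm_zero, zero_mul] at hxy
    exact hx0 hxy
  have hx1n : NrF S ε' x1 := by
    intro v hv w hw
    obtain ⟨w', hw'⟩ := exists_below_ab (k := R) w
    have h1 : Ab w' v := ab_mid hw' hw
    exact hx1 w' (hAf.mem_toFinset.mpr ⟨v, hv, av_of_ab h1⟩) w hw'
  have hyn : NrF (S ∪ S2) ε3 y := by
    intro v hv w hw
    obtain ⟨w', hw'⟩ := exists_below_ab (k := R) w
    have h1 : Ab w' v := ab_mid hw' hw
    refine hy w' ?_ w hw'
    rcases hv with hv | hv
    · exact Or.inl (hAf.mem_toFinset.mpr ⟨v, hv, av_of_ab h1⟩)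
    · exact Or.inr (hA2f.mem_toFinset.mpr ⟨v, hv, av_of_ab h1⟩)
  have h1 := hG x1 hx10 hx1n
  have h2 := hM (Algebra.norm M y) (Algebra.norm_ne_zero_iff.mpr hy0) (hn y hyn)
  rw [hxy, map_mul, Algebra.norm_norm, Algebra.norm_norm]
  rw [Algebra.norm_norm] at h2
  exact h1.mul h2

/-- **The tower**: for every prime `p` there is a field of degree prime to `p`. -/
theorem exists_prime_to {S : Set (Place k)} (hSf : S.Finite)
    {W : Subgroup Pˣ} (hGF : GF S W) {M : Type} [Field M] [Algebra P M]
    [Algebra k M] [IsScalarTower k P M] [FiniteDimensional P M] [Algebra.IsSeparable P M]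
    (hM : Gd S W M) {p : ℕ} (hp : p.Prime) (hN1 : N1 p) (hN2 : N2 p) (hX : NXp p) :
    ∃ (r : ℕ) (ε : ℝ), ¬ p ∣ r ∧ 0 < ε ∧ ∀ b : Pˣ, NrF S ε (b : P) → b ^ r ∈ W := by
  classical
  have hpf : Fact p.Prime := ⟨hp⟩
  have f0 : FiniteDimensional k M := Module.Finite.trans P M
  have gM : GFF M := Hey.H63.gff_of_finite (k := P)
  let e : M →ₐ[P] AlgebraicClosure P := IsAlgClosed.lift
  have hefd : FiniteDimensional P e.fieldRange :=
    LinearEquiv.finiteDimensional (AlgEquiv.ofInjectiveField e).toLinearEquiv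
  have hesep : Algebra.IsSeparable P e.fieldRange :=
    AlgEquiv.Algebra.isSeparable (AlgEquiv.ofInjectiveField e)
  obtain ⟨f, R, -, hRf, hRs, hR, h⟩ := H327.Tower.tower_induction e.fieldRange p
    (fun _ R => Gd S W R) (by
      intro R hRf hRs hER
      let e' : M →+* R := (e : M →+* AlgebraicClosure P).codRestrict R.toSubfield fun x =>
        hER ⟨x, rfl⟩
      let _ : Algebra M R := e'.toAlgebra
      have gR : GFF R := Hey.H63.gff_of_finite (k := P)
      have t1 : IsScalarTower P M R := IsScalarTower.of_algebraMap_eq fun b =>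
        Subtype.ext (e.commutes b).symm
      have t2 : IsScalarTower k P R := inferInstance
      have t3 : IsScalarTower k M R := IsScalarTower.of_algebraMap_eq fun b => by
        rw [IsScalarTower.algebraMap_apply k P M, ← IsScalarTower.algebraMap_apply P M R,
          ← IsScalarTower.algebraMap_apply]
      have f1 : FiniteDimensional M R := FiniteDimensional.right P M R
      have s1 : Algebra.IsSeparable M R := Algebra.isSeparable_tower_top_of_isSeparable P M R
      obtain ⟨c, hc, hG⟩ := hM
      obtain ⟨c', hc', hn⟩ := exists_nrF_norm (k := k) (X := M) (Y := R) hSf hc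
      refine ⟨c', hc', fun x hx0 hx => ?_⟩
      have h1 := hG _ (Algebra.norm_ne_zero_iff.mpr hx0) (hn x hx)
      rwa [Algebra.norm_norm] at h1)
    (by
      intro j R R' hRR hRf hRf' hRs hRs' hgal hfr ih
      have gR : GFF R := Hey.H63.gff_of_finite (k := P)
      have gR' : GFF R' := Hey.H63.gff_of_finite (k := P)
      let _ : Algebra R R' := (IntermediateField.inclusion hRR).toRingHom.toAlgebra
      have t1 : IsScalarTower P R R' := IsScalarTower.of_algebraMap_eq fun _ => rfl
      have t2 : IsScalarTower k R R' := IsScalarTower.of_algebraMap_eq fun _ => rfl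
      let e2 : IntermediateField.extendScalars hRR ≃ₐ[R] R' :=
        { toFun := fun x => ⟨x.1, x.2⟩
          invFun := fun x => ⟨x.1, x.2⟩
          left_inv := fun _ => rfl
          right_inv := fun _ => rfl
          map_mul' := fun _ _ => rfl
          map_add' := fun _ _ => rfl
          commutes' := fun _ => rfl }
      have hg : IsGalois R R' := IsGalois.of_algEquiv e2
      have hdeg : finrank R R' = p := by rw [← e2.toLinearEquiv.finrank_eq, hfr]
      exact gd_step hSf hGF hp hN1 hN2 hX hdeg ih)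
  have gR : GFF R := Hey.H63.gff_of_finite (k := P)
  have fR : FiniteDimensional k R := Module.Finite.trans P R
  obtain ⟨c, hc, hG⟩ := h
  obtain ⟨c', hc', hup⟩ := exists_nrF_up (X := P) (Y := R) hSf hc
  refine ⟨finrank P R, c', hR, hc', fun b hb => ?_⟩
  obtain ⟨b', hb', hbb⟩ := hG (algebraMap P R b) ((_root_.map_ne_zero _).mpr b.ne_zero)
    (hup _ hb)
  rw [Algebra.norm_algebraMap] at hbb
  have h1 : b' = b ^ finrank P R := Units.ext (by rw [hbb, Units.val_pow_eq_pow_val])
  rwa [h1] at hb'

/-- **The descent (abstract tower lemma)**: the elements of `P` close to one above `S` belong to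
the subgroup. Every characteristic, every degree. -/
theorem descent {S : Set (Place k)} (hSf : S.Finite)
    {W : Subgroup Pˣ} (hGF : GF S W) {M : Type} [Field M] [Algebra P M]
    [Algebra k M] [IsScalarTower k P M] [FiniteDimensional P M] [Algebra.IsSeparable P M]
    (hM : Gd S W M) (hN : ∀ p : ℕ, p.Prime → p ∣ finrank P M → N1 p ∧ N2 p ∧ NXp p) :
    ∃ ε : ℝ, 0 < ε ∧ ∀ b : Pˣ, NrF S ε (b : P) → b ∈ W := by
  classical
  have f0 : FiniteDimensional k M := Module.Finite.trans P M
  have gM : GFF M := Hey.H63.gff_of_finite (k := P)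
  have h1 : ∀ p : ℕ, ∃ (r : ℕ) (c : ℝ), 0 < c ∧
      (p ∈ (finrank P M).primeFactors → ¬ p ∣ r ∧ ∀ b : Pˣ, NrF S c (b : P) → b ^ r ∈ W) := by
    intro p
    by_cases hp : p ∈ (finrank P M).primeFactors
    · rw [Nat.mem_primeFactors] at hp
      obtain ⟨g1, g2, g3⟩ := hN p hp.1 hp.2.1
      obtain ⟨r, c, h2, h3, h4⟩ := exists_prime_to hSf hGF hM hp.1 g1 g2 g3
      exact ⟨r, c, h3, fun _ => ⟨h2, h4⟩⟩
    · exact ⟨0, 1, one_pos, fun h => absurd h hp⟩
  choose r c hc hrc using h1
  obtain ⟨m, hm, hml⟩ := exists_lb (finrank P M).primeFactors c fun p _ => hc p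
  obtain ⟨c0, hc0, hG⟩ := hM
  obtain ⟨c1, hc1, hup⟩ := exists_nrF_up (X := P) (Y := M) hSf hc0
  refine ⟨min m c1, lt_min hm hc1, fun b hb => ?_⟩
  refine H327.Tower.mem_of_pow_mem W b (n := finrank P M) ?_ fun p hp hpm => ?_
  · obtain ⟨b', hb', hbb⟩ := hG (algebraMap P M b) ((_root_.map_ne_zero _).mpr b.ne_zero)
      (hup _ (hb.mono (subset_refl S) (min_le_right _ _)))
    rw [Algebra.norm_algebraMap] at hbb
    have h2 : b' = b ^ finrank P M := Units.ext (by rw [hbb, Units.val_pow_eq_pow_val])
    rwa [h2] at hb'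
  · have hpm' : p ∈ (finrank P M).primeFactors :=
      Nat.mem_primeFactors.mpr ⟨hp, hpm, Module.finrank_pos.ne'⟩
    obtain ⟨h2, h3⟩ := hrc p hpm'
    exact ⟨r p, h2, h3 b (hb.mono (subset_refl S) ((min_le_left _ _).trans (hml p hpm')))⟩

end step

end Vale.Agent.P011.H738.Atl
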