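import Vale.Agent.P011.H74.Odd.TwoNorm

/-!
# The two norms lemma over function fields, in every characteristic

`R' / R` is Galois of prime degree `p`; `p` may be the characteristic. Real radii.
-/

open Polynomial Module

set_option linter.unusedSectionVars false

namespace Vale.Agent.P011.H738.Atl

open Vale.Agent.P011.H738 Vale.Agent.P011.H271 Vale.Agent.P011.H271.S3 Vale.Agent.P011.H973.PF
open Vale.Agent.P011.H511.FF Vale.Agent.P011.H74.Odd
open Vale.Agent.P011.Hey.H63 (LocN)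

/-- Norms close to one are norms of elements close to one. -/
def NX (R R' : Type) [Field R] [Field R'] [Algebra R R'] : Prop :=
  ∀ S : Finset (Place R), ∀ ε : ℝ, 0 < ε → ∃ δ : ℝ, 0 < δ ∧ ∀ e0 : R'ˣ,
    (∀ v ∈ S, v.abv (Algebra.norm R (e0 : R') - 1) < δ) →
    ∃ e1 : R'ˣ, Algebra.norm R (e1 : R') = Algebra.norm R (e0 : R') ∧
      ∀ v ∈ S, ∀ w : Place R', Av' w v → w.abv ((e1 : R') - 1) < ε

/-- The same for all Galois extensions of degree `p`. -/
def NXp (p : ℕ) : Prop := ∀ (R R' : Type) [Field R] [GFF R] [Field R'] [GFF R'] [Algebra R R']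
  [FiniteDimensional R R'] [IsGalois R R'], finrank R R' = p → NX R R'

/-- Small elements below are small above. -/
theorem ab_small {R M : Type} [Field R] [Field M] [Algebra R M] {W : Place M} {v : Place R}
    (h : Ab W v) {ε : ℝ} (hε : 0 < ε) :
    ∃ r : ℝ, 0 < r ∧ ∀ x : R, v.abv x < r → W.abv (algebraMap R M x) < ε := by
  obtain ⟨c, hc, h1⟩ := h
  refine ⟨ε ^ c⁻¹, Real.rpow_pos_of_pos hε _, fun x hx => ?_⟩
  rw [h1]
  have h2 := Real.rpow_lt_rpow (v.abv.nonneg x) hx hc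
  rwa [← Real.rpow_mul hε.le, inv_mul_cancel₀ hc.ne', Real.rpow_one] at h2

/-- A radius below for a radius above. -/
theorem exists_rad {R M : Type} [Field R] [GFF R] [Field M] [Algebra R M]
    [FiniteDimensional R M] (v : Place R) {ε : ℝ} (hε : 0 < ε) {δ : ℝ} (hδ : 0 < δ) :
    ∃ g : R, g ≠ 0 ∧ v.abv g ≤ 1 ∧ v.abv g < δ ∧
      ∀ W : Place M, Ab W v → W.abv (algebraMap R M g) < ε := by
  classical
  have : GFF M := Hey.H63.gff_of_finite (k := R)
  have hfin : {W : Place M | ∃ v' ∈ ({v} : Set (Place R)), Av' W v'}.Finite :=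
    above_finite (Set.finite_singleton v)
  have h1 : ∀ W : Place M, ∃ r : ℝ, 0 < r ∧
      (Ab W v → ∀ x : R, v.abv x < r → W.abv (algebraMap R M x) < ε) := by
    intro W
    by_cases hW : Ab W v
    · obtain ⟨r, hr, h⟩ := ab_small hW hε
      exact ⟨r, hr, fun _ => h⟩
    · exact ⟨1, one_pos, fun h => (hW h).elim⟩
  choose r hr h1 using h1
  obtain ⟨m, hm, hml⟩ := exists_lb hfin.toFinset r fun W _ => hr W
  obtain ⟨g, hg0, hg1, hg2⟩ := exists_small v (lt_min hδ hm)
  refine ⟨g, hg0, hg1, hg2.trans_le (min_le_left _ _), fun W hW => h1 W hW g ?_⟩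
  exact hg2.trans_le ((min_le_right _ _).trans
    (hml W (hfin.mem_toFinset.2 ⟨v, rfl, av_of_ab hW⟩)))

/-- **The two norms lemma over function fields, in every characteristic.** -/
theorem two_norm_all {p : ℕ} (hp : p.Prime) (hN1 : N1 p) (hN2 : N2 p) {R R' : Type} [Field R]
    [GFF R] [Field R'] [Algebra R R'] [FiniteDimensional R R'] [IsGalois R R']
    (hdeg : finrank R R' = p) (hX : NX R R') (A : Finset (Place R)) {ε : ℝ} (hε : 0 < ε) :
    ∃ v0 : Place R, v0 ∉ A ∧ ∃ δ : ℝ, 0 < δ ∧ ∀ x : R, x ≠ 0 → (∀ v ∈ A, v.abv (x - 1) < δ) →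
      ∃ V : Finset (Place R), Disjoint V A ∧
      ∀ (M : Type) [Field M] [Algebra R M] [FiniteDimensional R M] [Algebra.IsSeparable R M],
      (∀ v, v = v0 ∨ v ∈ V → TS R M v) →
      ∀ A2 : Finset (Place R), Disjoint V A2 → ∀ ε2 : ℝ, 0 < ε2 →
      ∃ (x1 : R') (y : M), y ≠ 0 ∧ x = Algebra.norm R x1 * Algebra.norm R y ∧
        (∀ v ∈ A, ∀ w : Place R', Ab w v → w.abv (x1 - 1) < ε) ∧
        ∀ v, v ∈ A ∨ v ∈ A2 → ∀ w : Place M, Ab w v → w.abv (y - 1) < ε2 := by
  classical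
  obtain ⟨v0, hv0, hr, hn⟩ := hN2 R R' hdeg A (Finset.finite_toSet A)
  choose δ1 hδ1 _ hopen using fun v : Place R => Hey.H63.loc_open R' v
  obtain ⟨m1, hm1, hm1l⟩ := exists_lb A δ1 fun v _ => hδ1 v
  obtain ⟨δ2, hδ2, hX⟩ := hX A ε hε
  refine ⟨v0, hv0, min (min m1 δ2) 1, lt_min (lt_min hm1 hδ2) one_pos, fun x hx hxA => ?_⟩
  have hfin := finite_not_locN (E := R') hx
  have hVA : ∀ v ∈ A, LocN R' x v := fun v hv => hopen v x
    ((hxA v hv).trans_le (((min_le_left _ _).trans (min_le_left _ _)).trans (hm1l v hv)))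
  refine ⟨hfin.toFinset, ?_, fun M _ _ _ _ hTS A2 hA2 ε2 hε2 => ?_⟩
  · rw [Finset.disjoint_left]
    intro v hv hvA
    exact (hfin.mem_toFinset.1 hv) (hVA v hvA)
  have : GFF M := Hey.H63.gff_of_finite (k := R)
  have : GFF R' := Hey.H63.gff_of_finite (k := R)
  have hTV : ∀ v ∈ hfin.toFinset, TS R M v := fun v hv => hTS v (Or.inr hv)
  let φ : ∀ v : Place R, v ∈ hfin.toFinset → (M →ₐ[R] v.comp) := fun v hv =>
    (hTV v hv).exists_emb.some
  have hfS : {W : Place M | ∃ v ∈ ((A ∪ A2 : Finset (Place R)) : Set (Place R)), Av' W v}.Finite :=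
    above_finite (Finset.finite_toSet (A ∪ A2))
  choose be hbe using fun W : Place M => below_av (k := R) W
  have hbe' : ∀ {W : Place M} {v : Place R}, Ab W v → be W = v := fun h =>
    (hbe _).unique (av_of_ab h)
  -- radii
  choose G hG0 hG1 hG2 hG3 using fun v : Place R => exists_rad (M := M) v hε2
    (lt_min (lt_min hm1 hδ2) one_pos)
  obtain ⟨y, hy0, hy1, hy2⟩ := two_norm_core hp hN1 hdeg hr hn hx hfin.toFinset
    (fun v hv => by
      by_contra hcon
      exact hv (hfin.mem_toFinset.2 hcon)) (hTS v0 (Or.inl rfl)) hTV φ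
    hfS.toFinset (fun v hv h => by
      obtain ⟨v', hv', hW⟩ := hfS.mem_toFinset.1 h
      have h1 : v = v' := (av_of_ab (plE_ab (φ v hv))).unique hW
      subst h1
      rcases Finset.mem_union.1 hv' with h2 | h2
      · exact (hfin.mem_toFinset.1 hv) (hVA v h2)
      · exact Finset.disjoint_left.1 hA2 hv h2)
    (fun W => algebraMap R M (G (be W))) (fun W _ => (_root_.map_ne_zero _).2 (hG0 _))
  have hynear : ∀ v, v ∈ A ∨ v ∈ A2 → ∀ w : Place M, Ab w v →
      w.abv (y - 1) < w.abv (algebraMap R M (G v)) := by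
    intro v hv w hw
    have h1 := hy2 w (hfS.mem_toFinset.2 ⟨v, Finset.mem_union.2 hv, av_of_ab hw⟩)
    rwa [hbe' hw] at h1
  have hN0 : Algebra.norm R y ≠ 0 := Algebra.norm_ne_zero_iff.2 hy0
  have hb0 : x / Algebra.norm R y ≠ 0 := div_ne_zero hx hN0
  have hbA : ∀ v ∈ A, v.abv (x / Algebra.norm R y - 1) < min (min m1 δ2) 1 := by
    intro v hv
    rw [div_eq_mul_inv]
    refine close_mul v (min_le_right _ _) (hxA v hv) (close_inv v (min_le_right _ _) ?_)
    exact (norm_near (hG0 v) (hG1 v) fun W hW => hynear v (Or.inl hv) W hW).trans (hG2 v)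
  obtain ⟨e0, he0⟩ := Hey.hasse_norm hp hdeg _ hy1
  have he00 : e0 ≠ 0 := by
    rintro rfl
    rw [Algebra.norm_zero] at he0
    exact hb0 he0.symm
  obtain ⟨e1, he1, he2⟩ := hX (Units.mk0 e0 he00) fun v hv => by
    rw [Units.val_mk0, he0]
    exact (hbA v hv).trans_le ((min_le_left _ _).trans (min_le_right _ _))
  rw [Units.val_mk0, he0] at he1
  refine ⟨e1, y, hy0, ?_, fun v hv w hw => he2 v hv w (av_of_ab hw), fun v hv w hw =>
    (hynear v hv w hw).trans (hG3 v w hw)⟩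
  rw [he1, div_mul_cancel₀ _ hN0]

end Vale.Agent.P011.H738.Atl
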